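import Vale.Agent.P092.H76.Form

/-!
P092 (helper22), block CRE: operators defined by ultralimits of forms on a subspace.
-/

set_option linter.all false

open Filter Topology ContinuousLinearMap
open scoped InnerProductSpace

namespace Vale.Agent.P092CR

variable {H : Type} [NormedAddCommGroup H] [InnerProductSpace ℂ H] [CompleteSpace H]
  {D : Submodule ℂ H}

/-- operators which live on the closure of `D` -/
structure Sp (D : Submodule ℂ H) (T : H →L[ℂ] H) : Prop where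
  ker : ∀ w ∈ Dᗮ, T w = 0
  ran : ∀ v, ∀ w ∈ Dᗮ, ⟪w, T v⟫_ℂ = 0

theorem dense_ind (D : Submodule ℂ H) {p : H → Prop} (hp : IsClosed {v | p v})
    (h : ∀ ξ ∈ D, ∀ w ∈ Dᗮ, p (ξ + w)) (v : H) : p v := by
  have h1 : (D ⊔ Dᗮ).topologicalClosure = ⊤ := by
    rw [Submodule.topologicalClosure_eq_top_iff, ← Submodule.inf_orthogonal,
      Submodule.inf_orthogonal_eq_bot]
  have h2 : v ∈ closure ((D ⊔ Dᗮ : Submodule ℂ H) : Set H) := by
    rw [← Submodule.topologicalClosure_coe, h1]; trivial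
  refine hp.closure_subset_iff.2 (fun u hu => ?_) h2
  obtain ⟨ξ, hξ, w, hw, rfl⟩ := Submodule.mem_sup.1 hu
  exact h ξ hξ w hw

theorem Sp.inner_add {T : H →L[ℂ] H} (h : Sp D T) (ξ ξ' : H) {w w' : H} (hw : w ∈ Dᗮ)
    (hw' : w' ∈ Dᗮ) : ⟪ξ + w, T (ξ' + w')⟫_ℂ = ⟪ξ, T ξ'⟫_ℂ := by
  rw [map_add, h.ker w' hw', add_zero, inner_add_left, h.ran _ w hw, add_zero]

theorem Sp.ext {T T' : H →L[ℂ] H} (h : Sp D T) (h' : Sp D T')
    (e : ∀ ξ ∈ D, ∀ ξ' ∈ D, ⟪ξ, T ξ'⟫_ℂ = ⟪ξ, T' ξ'⟫_ℂ) : T = T' := by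
  refine ContinuousLinearMap.ext fun v' => ext_inner_left ℂ fun v => ?_
  refine dense_ind D (p := fun v => ⟪v, T v'⟫_ℂ = ⟪v, T' v'⟫_ℂ)
    (isClosed_eq (by fun_prop) (by fun_prop)) (fun ξ hξ w hw => ?_) v
  refine dense_ind D (p := fun v' => ⟪ξ + w, T v'⟫_ℂ = ⟪ξ + w, T' v'⟫_ℂ)
    (isClosed_eq (by fun_prop) (by fun_prop)) (fun ξ' hξ' w' hw' => ?_) v'
  rw [h.inner_add _ _ hw hw', h'.inner_add _ _ hw hw', e ξ hξ ξ' hξ']

theorem exists_sp (D : Submodule ℂ H) (q : D → D → ℂ)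
    (hadd : ∀ a b c, q a (b + c) = q a b + q a c) (hsmul : ∀ (c : ℂ) a b, q a (c • b) = c * q a b)
    (hadd' : ∀ a b c, q (a + b) c = q a c + q b c)
    (hsmul' : ∀ (c : ℂ) a b, q (c • a) b = (starRingEnd ℂ) c * q a b) {c : ℝ} (hc : 0 ≤ c)
    (hq : ∀ a b : D, ‖q a b‖ ≤ c * ‖(a : H)‖ * ‖(b : H)‖) :
    ∃ T : H →L[ℂ] H, Sp D T ∧ (∀ a b : D, ⟪(a : H), T b⟫_ℂ = q a b) ∧ ‖T‖ ≤ c := by
  obtain ⟨T, h1, h2, h3, h4⟩ :=
    Vale.Agent.P092.H76.exists_form D.subtype q hadd hsmul hadd' hsmul' c hc hq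
  rw [Submodule.range_subtype] at h2 h3
  exact ⟨T, ⟨h2, fun v w hw => inner_eq_zero_symm.1 (h3 v w hw)⟩, h1, h4⟩

theorem Sp.norm_le {T : H →L[ℂ] H} (h : Sp D T) {c : ℝ} (hc : 0 ≤ c)
    (e : ∀ ξ ∈ D, ∀ ξ' ∈ D, ‖⟪ξ, T ξ'⟫_ℂ‖ ≤ c * ‖ξ‖ * ‖ξ'‖) : ‖T‖ ≤ c := by
  obtain ⟨T', h1, h2, h3⟩ := exists_sp D (fun a b => ⟪(a : H), T b⟫_ℂ)
    (fun a b c => by rw [Submodule.coe_add, map_add, inner_add_right])
    (fun c a b => by rw [Submodule.coe_smul, map_smul, inner_smul_right])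
    (fun a b c => by rw [Submodule.coe_add, inner_add_left])
    (fun c a b => by rw [Submodule.coe_smul, inner_smul_left]) hc fun a b => e a a.2 b b.2
  rwa [h.ext h1 fun ξ hξ ξ' hξ' => (h2 ⟨ξ, hξ⟩ ⟨ξ', hξ'⟩).symm]

theorem Sp.add {T T' : H →L[ℂ] H} (h : Sp D T) (h' : Sp D T') : Sp D (T + T') :=
  ⟨fun w hw => by rw [add_apply, h.ker w hw, h'.ker w hw, add_zero],
    fun v w hw => by rw [add_apply, inner_add_right, h.ran v w hw, h'.ran v w hw, add_zero]⟩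

theorem Sp.smul {T : H →L[ℂ] H} (h : Sp D T) (c : ℂ) : Sp D (c • T) :=
  ⟨fun w hw => by rw [smul_apply, h.ker w hw, smul_zero],
    fun v w hw => by rw [smul_apply, inner_smul_right, h.ran v w hw, mul_zero]⟩

theorem Sp.adj {T : H →L[ℂ] H} (h : Sp D T) : Sp D (adjoint T) :=
  ⟨fun w hw => ext_inner_left ℂ fun v => by
      rw [adjoint_inner_right, inner_zero_right, inner_eq_zero_symm, h.ran v w hw],
    fun v w hw => by rw [adjoint_inner_right, h.ker w hw, inner_zero_left]⟩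

theorem Sp.mul_right {T b : H →L[ℂ] H} (h : Sp D T) (hb : ∀ ξ ∈ D, adjoint b ξ ∈ D) :
    Sp D (T * b) :=
  ⟨fun w hw => h.ker (b w) fun ξ hξ => by rw [← adjoint_inner_left]; exact hw _ (hb ξ hξ),
    fun v w hw => h.ran (b v) w hw⟩

theorem Sp.mul_left {T b : H →L[ℂ] H} (h : Sp D T) (hb : ∀ ξ ∈ D, b ξ ∈ D) : Sp D (b * T) :=
  ⟨fun w hw => by change b (T w) = 0; rw [h.ker w hw, map_zero], fun v w hw => by
    change ⟪w, b (T v)⟫_ℂ = 0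
    rw [← adjoint_inner_left]
    exact h.ran v _ fun ξ hξ => by rw [adjoint_inner_right]; exact hw _ (hb ξ hξ)⟩

section lim

variable {α : Type} {l : Filter α}

/-- eventually bounded families -/
def Bo (l : Filter α) (v : α → H) : Prop := ∃ B : ℝ, ∀ᶠ k in l, ‖v k‖ ≤ B

theorem bo_of {v : α → H} {c : ℝ} (h : Tendsto (fun k => ‖v k‖) l (𝓝 c)) : Bo l v :=
  ⟨c + 1, (h.eventually (Iic_mem_nhds (lt_add_one c))).mono fun _ hk => hk⟩

theorem Bo.map {v w : α → H} (h : Bo l v) {c : ℝ} (hc : 0 ≤ c) (e : ∀ k, ‖w k‖ ≤ c * ‖v k‖) :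
    Bo l w :=
  let ⟨B, hB⟩ := h
  ⟨c * B, hB.mono fun k hk => (e k).trans (mul_le_mul_of_nonneg_left hk hc)⟩

theorem nul_map {v w : α → H} (h : Tendsto v l (𝓝 0)) {c : ℝ} (e : ∀ k, ‖w k‖ ≤ c * ‖v k‖) :
    Tendsto w l (𝓝 0) := by
  have h1 := (tendsto_zero_iff_norm_tendsto_zero.1 h).const_mul c
  rw [mul_zero] at h1
  exact squeeze_zero_norm e h1

theorem nul_of {v w : α → H} (h : Bo l v) (e : ∀ c : ℝ, 0 < c → ∀ᶠ k in l, ‖w k‖ ≤ c * ‖v k‖) :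
    Tendsto w l (𝓝 0) := by
  obtain ⟨B, hB⟩ := h
  refine Metric.tendsto_nhds.2 fun ε hε => ?_
  have hp : 0 < |B| + 1 := by positivity
  filter_upwards [hB, e _ (div_pos hε hp)] with k h1 h2
  rw [dist_zero_right]
  refine h2.trans_lt ?_
  rw [div_mul_eq_mul_div, div_lt_iff₀ hp]
  exact mul_lt_mul_of_pos_left (by linarith [le_abs_self B]) hε

theorem nul_left {v w : α → H} (h : Tendsto v l (𝓝 0)) (hw : Bo l w) :
    Tendsto (fun k => ⟪v k, w k⟫_ℂ) l (𝓝 0) := by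
  obtain ⟨B, hB⟩ := hw
  have h1 := (tendsto_zero_iff_norm_tendsto_zero.1 h).mul_const B
  rw [zero_mul] at h1
  exact squeeze_zero_norm' (hB.mono fun k hk => (norm_inner_le_norm _ _).trans
    (mul_le_mul_of_nonneg_left hk (norm_nonneg _))) h1

theorem nul_right {v w : α → H} (hv : Bo l v) (h : Tendsto w l (𝓝 0)) :
    Tendsto (fun k => ⟪v k, w k⟫_ℂ) l (𝓝 0) := by
  obtain ⟨B, hB⟩ := hv
  have h1 := (tendsto_zero_iff_norm_tendsto_zero.1 h).const_mul B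
  rw [mul_zero] at h1
  exact squeeze_zero_norm' (hB.mono fun k hk => (norm_inner_le_norm _ _).trans
    (mul_le_mul_of_nonneg_right hk (norm_nonneg _))) h1

theorem eq_of_nul [NeBot l] {u u' : α → ℂ} {a a' : ℂ} (h : Tendsto u l (𝓝 a))
    (h' : Tendsto u' l (𝓝 a')) (e : Tendsto (fun k => u k - u' k) l (𝓝 0)) : a = a' :=
  sub_eq_zero.1 (tendsto_nhds_unique (h.sub h') e)

theorem adj_sub_sq {y : H →L[ℂ] H} (hy : ∀ v, ‖y v‖ ≤ ‖v‖) (hy' : ∀ v, ‖adjoint y v‖ ≤ ‖v‖) (v : H) :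
    ‖adjoint y (y v) - v‖ ^ 2 ≤ ‖v‖ ^ 2 - ‖y v‖ ^ 2 := by
  rw [@norm_sub_sq ℂ, adjoint_inner_left, inner_self_eq_norm_sq]
  nlinarith [hy' (y v), norm_nonneg (adjoint y (y v))]

/-- **ultralimits of forms are operators** -/
theorem exists_lim (𝒰 : Ultrafilter α) {ι : α → H →L[ℂ] H}
    (hι : ∀ ξ ∈ D, Tendsto (fun k => ‖ι k ξ‖) 𝒰 (𝓝 ‖ξ‖)) {A : α → H →L[ℂ] H} {c : ℝ} (hc : 0 ≤ c)
    (hA : ∀ k v, ‖A k v‖ ≤ c * ‖v‖) : ∃ T : H →L[ℂ] H, Sp D T ∧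
      ∀ ξ ∈ D, ∀ ξ' ∈ D, Tendsto (fun k => ⟪ι k ξ, A k (ι k ξ')⟫_ℂ) 𝒰 (𝓝 ⟪ξ, T ξ'⟫_ℂ) := by
  have hb : ∀ (a b : D) k, ‖⟪ι k a, A k (ι k b)⟫_ℂ‖ ≤ c * ‖ι k a‖ * ‖ι k b‖ := fun a b k =>
    (norm_inner_le_norm _ _).trans (by nlinarith [hA k (ι k b), norm_nonneg (ι k a)])
  have hl : ∀ a b : D, Tendsto (fun k => c * ‖ι k a‖ * ‖ι k b‖) 𝒰 (𝓝 (c * ‖(a : H)‖ * ‖(b : H)‖)) :=
    fun a b => ((hι a a.2).const_mul c).mul (hι b b.2)
  have h1 : ∀ a b : D, ∃ z : ℂ, Tendsto (fun k => ⟪ι k a, A k (ι k b)⟫_ℂ) 𝒰 (𝓝 z) := by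
    intro a b
    obtain ⟨z, -, hz⟩ := (isCompact_closedBall (0 : ℂ) (c * ‖(a : H)‖ * ‖(b : H)‖ + 1)).ultrafilter_le_nhds
      (𝒰.map fun k => ⟪ι k a, A k (ι k b)⟫_ℂ) (le_principal_iff.2 (mem_map.2
        (((hl a b).eventually (Iic_mem_nhds (lt_add_one _))).mono fun k hk =>
          mem_closedBall_zero_iff.2 ((hb a b k).trans hk))))
    exact ⟨z, hz⟩
  choose q hq using h1
  obtain ⟨T, h1, h2, -⟩ := exists_sp D q
    (fun a b c => tendsto_nhds_unique (hq a (b + c)) (by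
      simpa only [Submodule.coe_add, map_add, inner_add_right] using (hq a b).add (hq a c)))
    (fun c a b => tendsto_nhds_unique (hq a (c • b)) (by
      simpa only [Submodule.coe_smul, map_smul, inner_smul_right] using (hq a b).const_mul c))
    (fun a b c => tendsto_nhds_unique (hq (a + b) c) (by
      simpa only [Submodule.coe_add, map_add, inner_add_left] using (hq a c).add (hq b c)))
    (fun c a b => tendsto_nhds_unique (hq (c • a) b) (by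
      simpa only [Submodule.coe_smul, map_smul, inner_smul_left] using (hq a b).const_mul _))
    hc fun a b => le_of_tendsto_of_tendsto' (hq a b).norm (hl a b) (hb a b)
  refine ⟨T, h1, fun ξ hξ ξ' hξ' => ?_⟩
  have h3 := hq ⟨ξ, hξ⟩ ⟨ξ', hξ'⟩
  rwa [← h2] at h3

end lim

end Vale.Agent.P092CR
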