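import Vale.Agent.P092CR.Form
import Vale.Agent.P092NW.Int

/-!
P092 (helper22), block CRE: the limit calculus along an asymptotic embedding.
-/

set_option linter.all false

open Filter Topology MeasureTheory ContinuousLinearMap
open scoped InnerProductSpace BoundedContinuousFunction

namespace Vale.Agent.P092CR

open Vale.Agent.P092WN Vale.Agent.P092NW

variable {G Γ H H₀ : Type} [Group G] [Group Γ] [NormedAddCommGroup H] [InnerProductSpace ℂ H]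
  [CompleteSpace H] [NormedAddCommGroup H₀] [InnerProductSpace ℂ H₀] {S : Sys G Γ H H₀}

theorem gen_mem {b : G → H →L[ℂ] H} {t : Γ} (hb : Hm S b t) (g : G) : b 1 (S.ζ g) ∈ Dn S :=
  Submodule.subset_span ⟨b, t, g, hb, rfl⟩

theorem ζ_mem (hS : Ex S) (g : G) : S.ζ g ∈ Dn S := gen_mem hS.hm_one g

theorem dn_ind {p : H → Prop} (h : ∀ b t g, Hm S b t → p (b 1 (S.ζ g))) (h0 : p 0)
    (hadd : ∀ v w, p v → p w → p (v + w)) (hsmul : ∀ (c : ℂ) v, p v → p (c • v)) {ξ : H}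
    (hξ : ξ ∈ Dn S) : p ξ := by
  induction hξ using Submodule.span_induction with
  | mem x hx => obtain ⟨b, t, g, hb, rfl⟩ := hx; exact h b t g hb
  | zero => exact h0
  | add x y _ _ hx hy => exact hadd x y hx hy
  | smul c x _ hx => exact hsmul c x hx

theorem map_mem {T : H →L[ℂ] H} (h : ∀ b t g, Hm S b t → T (b 1 (S.ζ g)) ∈ Dn S) {ξ : H}
    (hξ : ξ ∈ Dn S) : T ξ ∈ Dn S :=
  dn_ind (p := fun ξ => T ξ ∈ Dn S) h (by rw [map_zero]; exact zero_mem _)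
    (fun v w hv hw => by rw [map_add]; exact add_mem hv hw)
    (fun c v hv => by rw [map_smul]; exact Submodule.smul_mem _ c hv) hξ

theorem hm_mem (hS : Ex S) {b : G → H →L[ℂ] H} {t : Γ} (hb : Hm S b t) {ξ : H} (hξ : ξ ∈ Dn S) :
    b 1 ξ ∈ Dn S := map_mem (fun _ _ g hb' => gen_mem (hS.hm_mul hb hb') g) hξ

theorem L_gen (h : G) {b : G → H →L[ℂ] H} {t : Γ} (hb : Hm S b t) (g : G) :
    S.L h (b 1 (S.ζ g)) = b (1 * h) (S.ζ (h * g)) := by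
  rw [S.comm h _ b (S.L_lf h) hb.rt, S.L_ζ, mul_one, one_mul]

theorem L_mem (hS : Ex S) (h : G) {ξ : H} (hξ : ξ ∈ Dn S) : S.L h ξ ∈ Dn S :=
  map_mem (fun b t g hb => by rw [L_gen h hb]; exact gen_mem (hS.hm_shift hb h) _) hξ

theorem L_one {ξ : H} (hξ : ξ ∈ Dn S) : S.L 1 ξ = ξ :=
  dn_ind (p := fun ξ => S.L 1 ξ = ξ) (fun b t g hb => by rw [L_gen 1 hb, one_mul, one_mul])
    (map_zero _) (fun v w hv hw => by rw [map_add, hv, hw]) (fun c v hv => by rw [map_smul, hv]) hξ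

theorem norm_L (hS : Ex S) (h : G) {ξ : H} (hξ : ξ ∈ Dn S) : ‖S.L h ξ‖ = ‖ξ‖ := by
  refine le_antisymm (S.L_le h ξ) ?_
  have h1 := S.L_le h⁻¹ (S.L h ξ)
  rwa [hS.L_mul, inv_mul_cancel, L_one hξ] at h1

/-- slowly varying weights living far out -/
structure Wt (B : ℝ → Set Γ) (χ : ℕ → Γ → ℝ) : Prop where
  nonneg : ∀ k γ, 0 ≤ χ k γ
  le_one : ∀ k γ, χ k γ ≤ 1
  supp : ∀ t, ∀ᶠ k in atTop, ∀ γ, γ ∉ B t → χ k γ = 0
  slow : ∀ s t (c : ℝ), 0 < c → ∀ᶠ k in atTop, ∀ γ, |χ k (s * γ * t) - χ k γ| ≤ c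

/-- functions which agree far out -/
def Sl (B : ℝ → Set Γ) (f f' : Γ → ℝ) : Prop := ∀ c : ℝ, 0 < c → ∃ t, ∀ γ ∈ B t, |f γ - f' γ| ≤ c

variable {B : ℝ → Set Γ} {χ : ℕ → Γ → ℝ}

theorem Wt.abs_le (hW : Wt B χ) (k : ℕ) (γ : Γ) : |χ k γ| ≤ 1 := by
  rw [abs_of_nonneg (hW.nonneg k γ)]; exact hW.le_one k γ

theorem Wt.bd (hW : Wt B χ) {f : Γ → ℝ} (hf : Bd f) (k : ℕ) : Bd fun γ => f γ * χ k γ :=
  bd_mul hf ⟨1, hW.abs_le k⟩

theorem Wt.abs_mul_le (hW : Wt B χ) {f : Γ → ℝ} {c : ℝ} (k : ℕ) (γ : Γ) (hf : |f γ| ≤ c) :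
    |f γ * χ k γ| ≤ c := by
  rw [abs_mul]
  exact (mul_le_of_le_one_right (abs_nonneg _) (hW.abs_le k γ)).trans hf

theorem Wt.shift (hW : Wt B χ) {f f' : Γ → ℝ} (hf : ∀ γ, |f γ| ≤ 1) (s t : Γ)
    (h : Sl B (fun γ => f (s * γ * t)) f') {c : ℝ} (hc : 0 < c) :
    ∀ᶠ k in atTop, ∀ γ, |f (s * γ * t) * χ k (s * γ * t) - f' γ * χ k γ| ≤ c := by
  obtain ⟨t₀, h0⟩ := h _ (half_pos hc)
  filter_upwards [hW.supp t₀, hW.slow s t _ (half_pos hc)] with k h1 h2 γ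
  have e : f (s * γ * t) * χ k (s * γ * t) - f' γ * χ k γ =
      f (s * γ * t) * (χ k (s * γ * t) - χ k γ) + (f (s * γ * t) - f' γ) * χ k γ := by ring
  have a1 : |f (s * γ * t) * (χ k (s * γ * t) - χ k γ)| ≤ c / 2 := by
    rw [abs_mul]
    exact (mul_le_of_le_one_left (abs_nonneg _) (hf _)).trans (h2 γ)
  have a2 : |(f (s * γ * t) - f' γ) * χ k γ| ≤ c / 2 := by
    by_cases hγ : γ ∈ B t₀
    · exact hW.abs_mul_le (f := fun γ => f (s * γ * t) - f' γ) k γ (h0 γ hγ)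
    · rw [h1 γ hγ, mul_zero, abs_zero]; exact (half_pos hc).le
  rw [e]
  exact (abs_add_le _ _).trans (by linarith)

/-- the limit calculus -/
structure Lm (S : Sys G Γ H H₀) (ι : ℕ → H →L[ℂ] H) (χ : ℕ → Γ → ℝ)
    (Θ : (Γ → ℝ) → H →L[ℂ] H) : Prop where
  nrm : ∀ ξ ∈ Dn S, Tendsto (fun k => ‖ι k ξ‖) (hyperfilter ℕ) (𝓝 ‖ξ‖)
  sp : ∀ {f}, Bd f → Sp (Dn S) (Θ f)
  lim : ∀ {f}, Bd f → ∀ ξ ∈ Dn S, ∀ ξ' ∈ Dn S,
    Tendsto (fun k => ⟪ι k ξ, S.m (fun γ => f γ * χ k γ) (ι k ξ')⟫_ℂ) (hyperfilter ℕ) (𝓝 ⟪ξ, Θ f ξ'⟫_ℂ)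

variable {len : Γ → ℝ} {Z : Subgroup G} {a : ℕ → G} {ι : ℕ → H →L[ℂ] H}
  {Θ : (Γ → ℝ) → H →L[ℂ] H}

theorem exists_lm (hE : Emb S len Z a ι) (hW : Wt B χ) : ∃ Θ, Lm S ι χ Θ := by
  have hn : ∀ ξ ∈ Dn S, Tendsto (fun k => ‖ι k ξ‖) (hyperfilter ℕ) (𝓝 ‖ξ‖) := by
    intro ξ hξ
    have h1 := ((RCLike.continuous_re.tendsto _).comp (hE.iso ξ hξ ξ hξ)).sqrt
    simp only [Function.comp_def, ← norm_eq_sqrt_re_inner] at h1
    exact h1.mono_left Nat.hyperfilter_le_atTop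
  have h1 : ∀ f : Γ → ℝ, ∃ T : H →L[ℂ] H, Bd f → Sp (Dn S) T ∧ ∀ ξ ∈ Dn S, ∀ ξ' ∈ Dn S,
      Tendsto (fun k => ⟪ι k ξ, S.m (fun γ => f γ * χ k γ) (ι k ξ')⟫_ℂ) (hyperfilter ℕ)
        (𝓝 ⟪ξ, T ξ'⟫_ℂ) := by
    intro f
    by_cases hf : Bd f
    · obtain ⟨c, hc⟩ := hf
      have h0 : 0 ≤ c := (abs_nonneg _).trans (hc 1)
      obtain ⟨T, hT⟩ := exists_lim (hyperfilter ℕ) hn (A := fun k => S.m fun γ => f γ * χ k γ) h0
        fun k v => norm_m_le S h0 (fun γ => hW.abs_mul_le k γ (hc γ)) v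
      exact ⟨T, fun _ => hT⟩
    · exact ⟨0, fun h => absurd h hf⟩
  choose Θ hΘ using h1
  exact ⟨Θ, hn, fun hf => (hΘ _ hf).1, fun hf => (hΘ _ hf).2⟩

namespace Lm

variable (hL : Lm S ι χ Θ) (hW : Wt B χ)
include hL

theorem bo {ξ : H} (hξ : ξ ∈ Dn S) : Bo (hyperfilter ℕ : Filter ℕ) fun k => ι k ξ := bo_of (hL.nrm ξ hξ)

include hW

theorem add {f g : Γ → ℝ} (hf : Bd f) (hg : Bd g) : Θ (fun γ => f γ + g γ) = Θ f + Θ g :=
  (hL.sp (bd_add hf hg)).ext ((hL.sp hf).add (hL.sp hg)) fun ξ hξ ξ' hξ' => by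
    refine tendsto_nhds_unique (hL.lim (bd_add hf hg) ξ hξ ξ' hξ') ?_
    rw [add_apply, inner_add_right]
    refine ((hL.lim hf ξ hξ ξ' hξ').add (hL.lim hg ξ hξ ξ' hξ')).congr fun k => ?_
    simp only [add_mul]
    rw [S.m_add _ _ (hW.bd hf k) (hW.bd hg k), inner_add_right]

theorem smul (c : ℝ) {f : Γ → ℝ} (hf : Bd f) : Θ (fun γ => c * f γ) = (c : ℂ) • Θ f :=
  (hL.sp (bd_mul (bd_const c) hf)).ext ((hL.sp hf).smul c) fun ξ hξ ξ' hξ' => by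
    refine tendsto_nhds_unique (hL.lim (bd_mul (bd_const c) hf) ξ hξ ξ' hξ') ?_
    rw [smul_apply, inner_smul_right]
    refine ((hL.lim hf ξ hξ ξ' hξ').const_mul (c : ℂ)).congr fun k => ?_
    simp only [mul_assoc]
    rw [S.m_smul c _ (hW.bd hf k), inner_smul_right]

theorem sub {f g : Γ → ℝ} (hf : Bd f) (hg : Bd g) : Θ (fun γ => f γ - g γ) = Θ f - Θ g := by
  have h := hL.add hW (bd_sub hf hg) hg
  simp only [sub_add_cancel] at h
  exact eq_sub_of_add_eq h.symm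

theorem norm_le {f : Γ → ℝ} (hf : Bd f) {c t : ℝ} (hc : 0 ≤ c) (h : ∀ γ ∈ B t, |f γ| ≤ c) :
    ‖Θ f‖ ≤ c :=
  (hL.sp hf).norm_le hc fun ξ hξ ξ' hξ' => by
    refine le_of_tendsto_of_tendsto (hL.lim hf ξ hξ ξ' hξ').norm
      (((hL.nrm ξ hξ).const_mul c).mul (hL.nrm ξ' hξ')) ?_
    filter_upwards [(hW.supp t).filter_mono Nat.hyperfilter_le_atTop] with k hk
    have h1 := norm_m_le S hc (f := fun γ => f γ * χ k γ) (fun γ => by
      by_cases hγ : γ ∈ B t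
      · exact hW.abs_mul_le k γ (h γ hγ)
      · simpa [hk γ hγ] using hc) (ι k ξ')
    exact (norm_inner_le_norm _ _).trans (by nlinarith [norm_nonneg (ι k ξ)])

theorem sa {f : Γ → ℝ} (hf : Bd f) : IsSelfAdjoint (Θ f) :=
  (hL.sp hf).adj.ext (hL.sp hf) fun ξ hξ ξ' hξ' => by
    refine tendsto_nhds_unique ?_ (hL.lim hf ξ hξ ξ' hξ')
    rw [adjoint_inner_right, ← inner_conj_symm]
    refine ((Complex.continuous_conj.tendsto _).comp (hL.lim hf ξ' hξ' ξ hξ)).congr fun k => ?_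
    rw [Function.comp_apply, inner_conj_symm, m_sa S (hW.bd hf k)]

theorem inner_sa {f : Γ → ℝ} (hf : Bd f) (v w : H) : ⟪Θ f v, w⟫_ℂ = ⟪v, Θ f w⟫_ℂ := by
  rw [← adjoint_inner_right, ← star_eq_adjoint, (hL.sa hW hf).star_eq]

theorem pos (hS : Ex S) {f : Γ → ℝ} (hf : Bd f) (h0 : ∀ γ, 0 ≤ f γ) : (Θ f).IsPositive := by
  refine isPositive_def'.2 ⟨hL.sa hW hf, fun v => ?_⟩
  rw [reApplyInnerSelf_apply, hL.inner_sa hW hf]
  refine dense_ind (Dn S) (p := fun v => 0 ≤ RCLike.re ⟪v, Θ f v⟫_ℂ)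
    (isClosed_le continuous_const (by fun_prop)) (fun ξ hξ w hw => ?_) v
  rw [(hL.sp hf).inner_add _ _ hw hw]
  exact ge_of_tendsto' ((Complex.continuous_re.tendsto _).comp (hL.lim hf ξ hξ ξ hξ)) fun k =>
    hS.re_m_nonneg (hW.bd hf k) (fun γ => mul_nonneg (h0 γ) (hW.nonneg k γ)) _

theorem cs (hS : Ex S) {f g : Γ → ℝ} (hf : Bd f) (hg : Bd g) (v : H) {ζ : H} (hζ : ζ ∈ Dn S) :
    ‖⟪v, Θ (fun γ => f γ * g γ) ζ⟫_ℂ‖ ^ 2 ≤
      (⟪v, Θ (fun γ => g γ * g γ) v⟫_ℂ).re * (⟪ζ, Θ (fun γ => f γ * f γ) ζ⟫_ℂ).re := by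
  refine dense_ind (Dn S) (p := fun v => ‖⟪v, Θ (fun γ => f γ * g γ) ζ⟫_ℂ‖ ^ 2 ≤
    (⟪v, Θ (fun γ => g γ * g γ) v⟫_ℂ).re * (⟪ζ, Θ (fun γ => f γ * f γ) ζ⟫_ℂ).re)
    (isClosed_le (by fun_prop) (by fun_prop)) (fun ξ hξ w hw => ?_) v
  rw [(hL.sp (bd_mul hg hg)).inner_add _ _ hw hw, inner_add_left, (hL.sp (bd_mul hf hg)).ran _ w hw,
    add_zero]
  refine le_of_tendsto_of_tendsto' ((hL.lim (bd_mul hf hg) ξ hξ ζ hζ).norm.pow 2)
    (((Complex.continuous_re.tendsto _).comp (hL.lim (bd_mul hg hg) ξ hξ ξ hξ)).mul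
      ((Complex.continuous_re.tendsto _).comp (hL.lim (bd_mul hf hf) ζ hζ ζ hζ))) fun k => ?_
  have hr : Bd fun γ => √(χ k γ) :=
    bd_unit (fun _ => Real.sqrt_nonneg _) fun γ => Real.sqrt_le_one.2 (hW.le_one k γ)
  have e : ∀ u u' : Γ → ℝ, (fun γ => u γ * u' γ * χ k γ) =
      fun γ => u' γ * √(χ k γ) * (u γ * √(χ k γ)) := fun u u' => funext fun γ => by
    rw [mul_mul_mul_comm, Real.mul_self_sqrt (hW.nonneg k γ), mul_comm (u γ)]
  simp only [Function.comp_apply]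
  rw [e, e, e, hS.inner_m_sq (bd_mul hg hr), hS.inner_m_sq (bd_mul hf hr), Complex.ofReal_re,
    Complex.ofReal_re, hS.m_mul _ _ (bd_mul hg hr) (bd_mul hf hr), ← m_sa S (bd_mul hg hr), ← mul_pow]
  exact pow_le_pow_left₀ (norm_nonneg _) (norm_inner_le_norm _ _) 2

theorem right (hS : Ex S) (hE : Emb S len Z a ι) {b : G → H →L[ℂ] H} {t : Γ} (hb : Hm S b t)
    {f f' : Γ → ℝ} (hf : ∀ γ, |f γ| ≤ 1) (hf' : ∀ γ, |f' γ| ≤ 1) (h : Sl B (fun γ => f (γ * t)) f') :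
    Θ f * b 1 = b 1 * Θ f' := by
  have hb' := hS.hm_star hb
  refine ((hL.sp (bd_of hf)).mul_right fun ξ hξ => hm_mem hS hb' hξ).ext
    ((hL.sp (bd_of hf')).mul_left fun ξ hξ => hm_mem hS hb hξ) fun ξ hξ ξ' hξ' => ?_
  rw [mul_ap, mul_ap, ← adjoint_inner_left (b 1)]
  refine eq_of_nul (hL.lim (bd_of hf) ξ hξ _ (hm_mem hS hb hξ'))
    (hL.lim (bd_of hf') _ (hm_mem hS hb' hξ) ξ' hξ') ?_
  have n1 : ∀ {f : Γ → ℝ}, (∀ γ, |f γ| ≤ 1) → ∀ k v, ‖S.m (fun γ => f γ * χ k γ) v‖ ≤ 1 * ‖v‖ :=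
    fun hf k v => norm_m_le S zero_le_one (fun γ => hW.abs_mul_le k γ (hf γ)) v
  have t1 := nul_right (hL.bo hξ) (nul_map (tendsto_zero_iff_norm_tendsto_zero.2
    ((hE.right b t hb ξ' hξ').mono_left Nat.hyperfilter_le_atTop)) fun k => n1 hf k _)
  have t2 := nul_left (tendsto_zero_iff_norm_tendsto_zero.2
    ((hE.right _ _ hb' ξ hξ).mono_left Nat.hyperfilter_le_atTop))
    ((hL.bo hξ').map zero_le_one fun k => n1 hf' k _)
  have t3 := nul_right (hL.bo hξ) (nul_of (w := fun k => S.m (fun γ => f γ * χ k γ) (b (a k) (ι k ξ')) -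
      b (a k) (S.m (fun γ => f' γ * χ k γ) (ι k ξ'))) (hL.bo hξ') fun c hc => by
    filter_upwards [(hW.shift hf 1 t (by simpa only [one_mul] using h) hc).filter_mono
      Nat.hyperfilter_le_atTop] with k hk
    rw [hb.hom _ _ (hW.bd (bd_of hf) k), ← map_sub]
    refine ((hb.ct _).1 _).trans (norm_m_sub S (bd_comp (hW.bd (bd_of hf) k) _)
      (hW.bd (bd_of hf') k) hc.le (fun γ => ?_) _)
    simpa only [one_mul] using hk γ)
  have t := (t1.add t3).sub t2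
  rw [add_zero, sub_zero] at t
  refine t.congr fun k => ?_
  simp only [map_sub, inner_sub_right, inner_sub_left, adjoint_inner_left]
  ring

theorem left (hS : Ex S) (hE : Emb S len Z a ι) {h : G} (hh : h ∈ Z)
    (hy : ∀ ε : ℝ, 0 < ε → ∃ J N, Nonempty (LB S len h J N ε)) {f : Γ → ℝ} (hf : ∀ γ, |f γ| ≤ 1)
    (hs : ∀ s, Sl B (fun γ => f (s * γ)) f) : Θ f * S.L h = S.L h * Θ f := by
  choose J N hy using fun n : ℕ => hy _ (Nat.one_div_pos_of_nat (n := n))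
  let y := fun n => (hy n).some
  let 𝓕 : Filter (ℕ × ℕ) := atTop.curry (hyperfilter ℕ : Filter ℕ)
  have : NeBot 𝓕 := ⟨fun h0 => by
    have h1 : ∀ᶠ p in 𝓕, False := by rw [h0]; exact eventually_bot
    obtain ⟨_, h2⟩ := (eventually_curry_iff.1 h1).exists
    exact h2.exists.elim fun _ => id⟩
  have hsnd : Tendsto Prod.snd 𝓕 (hyperfilter ℕ : Filter ℕ) := tendsto_snd.mono_left curry_le_prod
  have n1 : ∀ k v, ‖S.m (fun γ => f γ * χ k γ) v‖ ≤ 1 * ‖v‖ :=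
    fun k v => norm_m_le S zero_le_one (fun γ => hW.abs_mul_le k γ (hf γ)) v
  have bo : ∀ {ξ}, ξ ∈ Dn S → Bo 𝓕 fun p => ι p.2 ξ := fun hξ => bo_of ((hL.nrm _ hξ).comp hsnd)
  have a1 : ∀ {ξ}, ξ ∈ Dn S →
      Tendsto (fun p : ℕ × ℕ => ι p.2 (S.L h ξ) - (y p.1).op (ι p.2 ξ)) 𝓕 (𝓝 0) := by
    intro ξ hξ
    refine dn_ind (p := fun ξ => Tendsto (fun p : ℕ × ℕ => ι p.2 (S.L h ξ) - (y p.1).op (ι p.2 ξ)) 𝓕
      (𝓝 0)) (fun b t g hb => ?_) (by simp) (fun v w hv hw => ?_) (fun c v hv => ?_) hξ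
    · refine Metric.tendsto_nhds.2 fun ε hε => eventually_curry_iff.2 ?_
      filter_upwards [(tendsto_one_div_add_atTop_nhds_zero_nat (𝕜 := ℝ)).eventually
        (Iio_mem_nhds (half_pos hε))] with n hn
      filter_upwards [(hE.left h hh _ _ _ (y n) b t g hb _ (half_pos hε)).filter_mono
        Nat.hyperfilter_le_atTop] with k hk
      rw [dist_zero_right]
      exact hk.trans_lt (by linarith [show 1 / ((n : ℝ) + 1) < ε / 2 from hn])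
    · have h1 := hv.add hw
      rw [add_zero] at h1
      refine h1.congr fun p => ?_
      simp only [map_add]
      abel
    · have h1 := hv.const_smul c
      rw [smul_zero] at h1
      refine h1.congr fun p => ?_
      simp only [map_smul, smul_sub]
  have a2 : ∀ {ξ}, ξ ∈ Dn S → Tendsto (fun p : ℕ × ℕ =>
      S.m (fun γ => f γ * χ p.2 γ) ((y p.1).op (ι p.2 ξ)) -
        (y p.1).op (S.m (fun γ => f γ * χ p.2 γ) (ι p.2 ξ))) 𝓕 (𝓝 0) := by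
    intro ξ hξ
    refine Tendsto.curry (f := fun n k => S.m (fun γ => f γ * χ k γ) ((y n).op (ι k ξ)) -
      (y n).op (S.m (fun γ => f γ * χ k γ) (ι k ξ))) (Eventually.of_forall fun n => ?_)
    have h1 := tendsto_finset_sum Finset.univ fun (i : (y n).ι) _ =>
      nul_of (w := fun k => S.m (fun γ => f γ * χ k γ) ((y n).l i (ι k ξ)) -
        (y n).l i (S.m (fun γ => f γ * χ k γ) (ι k ξ))) (hL.bo hξ) fun c hc => by
      filter_upwards [(hW.shift hf ((y n).deg i) 1 (by simpa only [mul_one] using hs _) hc).filter_mono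
        Nat.hyperfilter_le_atTop] with k hk
      rw [((y n).hl i).hom _ (hW.bd (bd_of hf) k), ← map_sub]
      refine (((y n).hl i).ct.1 _).trans (norm_m_sub S (bd_comp (hW.bd (bd_of hf) k) _)
        (hW.bd (bd_of hf) k) hc.le (fun γ => ?_) _)
      simpa only [mul_one] using hk γ
    rw [Finset.sum_const_zero] at h1
    refine h1.congr fun k => ?_
    rw [LB.op, sum_apply, sum_apply, map_sum, Finset.sum_sub_distrib]
  have a3 : ∀ {ξ}, ξ ∈ Dn S → Tendsto (fun p : ℕ × ℕ =>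
      adjoint (y p.1).op ((y p.1).op (ι p.2 ξ)) - ι p.2 ξ) 𝓕 (𝓝 0) := by
    intro ξ hξ
    have h1 : Tendsto (fun p : ℕ × ℕ => ‖(y p.1).op (ι p.2 ξ)‖) 𝓕 (𝓝 ‖ξ‖) := by
      have h2 := (hL.nrm _ (L_mem hS h hξ)).comp hsnd
      rw [norm_L hS h hξ] at h2
      have h3 : Tendsto (fun p : ℕ × ℕ => ‖ι p.2 (S.L h ξ)‖ - ‖(y p.1).op (ι p.2 ξ)‖) 𝓕 (𝓝 0) :=
        squeeze_zero_norm (fun p => abs_norm_sub_norm_le _ _)
          (tendsto_zero_iff_norm_tendsto_zero.1 (a1 hξ))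
      simpa using h2.sub h3
    have h2 := ((((hL.nrm _ hξ).comp hsnd).pow 2).sub (h1.pow 2)).sqrt
    rw [sub_self, Real.sqrt_zero] at h2
    exact squeeze_zero_norm (fun p => Real.le_sqrt_of_sq_le
      (adj_sub_sq (y p.1).norm_le (norm_adj_le (y p.1).norm_le) _)) h2
  have key : ∀ η ∈ Dn S, ∀ ξ ∈ Dn S, ⟪S.L h η, Θ f (S.L h ξ)⟫_ℂ = ⟪η, Θ f ξ⟫_ℂ := by
    intro η hη ξ hξ
    refine eq_of_nul ((hL.lim (bd_of hf) _ (L_mem hS h hη) _ (L_mem hS h hξ)).comp hsnd)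
      ((hL.lim (bd_of hf) _ hη _ hξ).comp hsnd) ?_
    have b1 : Bo 𝓕 fun p => (y p.1).op (ι p.2 η) :=
      (bo hη).map zero_le_one fun p => by simpa using (y p.1).norm_le _
    have t1 := nul_left (a1 hη) ((bo (L_mem hS h hξ)).map zero_le_one fun p => n1 p.2 _)
    have t2 := nul_right b1 (nul_map (a1 hξ) fun p => n1 p.2 _)
    have t3 := nul_right b1 (a2 hξ)
    have t4 := nul_left (a3 hη) ((bo hξ).map zero_le_one fun p => n1 p.2 _)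
    have t := ((t1.add t2).add t3).add t4
    rw [add_zero, add_zero, add_zero] at t
    refine t.congr fun p => ?_
    simp only [map_sub, inner_sub_right, inner_sub_left, adjoint_inner_left, Function.comp_apply]
    ring
  refine ((hL.sp (bd_of hf)).mul_right fun ξ hξ => by rw [hS.adjoint_L]; exact L_mem hS _ hξ).ext
    ((hL.sp (bd_of hf)).mul_left fun ξ hξ => L_mem hS h hξ) fun ξ hξ ξ' hξ' => ?_
  have h1 := key _ (L_mem hS h⁻¹ hξ) ξ' hξ'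
  rw [hS.L_mul, mul_inv_cancel, L_one hξ, hS.L_adj, inv_inv] at h1
  exact h1

variable {G' : Type} [TopologicalSpace G'] {F : G' → Γ → ℝ}

theorem cont (h : UC F) : Continuous fun x => Θ (F x) :=
  continuous_iff_continuousAt.2 fun x₀ => Metric.tendsto_nhds.2 fun ε hε =>
    (h.cont x₀ _ (half_pos hε)).mono fun x hx => by
      rw [dist_eq_norm, ← hL.sub hW (h.bd x) (h.bd x₀)]
      exact (hL.norm_le hW (bd_sub (h.bd x) (h.bd x₀)) (t := 0) (half_pos hε).le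
        fun γ _ => hx γ).trans_lt (half_lt_self hε)

variable [MeasurableSpace G'] [OpensMeasurableSpace G'] [T2Space G'] {μ' : Measure G'}
  [IsFiniteMeasureOnCompacts μ'] {A K : Set G'}

/-- the limit calculus commutes with integrals -/
theorem int (h : UC F) (hK : IsCompact K) (hA : A ⊆ K) (w v : H) :
    ∫ x in A, ⟪w, Θ (F x) v⟫_ℂ ∂μ' = ⟪w, Θ (fun γ => ∫ x in A, F x γ ∂μ') v⟫_ℂ := by
  letI : TopologicalSpace Γ := ⊥
  haveI : DiscreteTopology Γ := ⟨rfl⟩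
  have hb : ∀ f : Γ →ᵇ ℝ, Bd f := fun f => ⟨‖f‖, fun γ => f.norm_coe_le_norm γ⟩
  let M : (Γ →ᵇ ℝ) →L[ℝ] ℂ := LinearMap.mkContinuous
    { toFun := fun f => ⟪w, Θ f v⟫_ℂ
      map_add' := fun f g => by
        rw [← inner_add_right, ← add_apply, ← hL.add hW (hb f) (hb g)]; rfl
      map_smul' := fun c f => by
        rw [RingHom.id_apply, Complex.real_smul, ← inner_smul_right, ← smul_apply,
          ← hL.smul hW c (hb f)]
        rfl } (‖w‖ * ‖v‖) fun f => by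
      refine (norm_inner_le_norm _ _).trans ?_
      rw [mul_assoc, mul_comm ‖v‖]
      exact mul_le_mul_of_nonneg_left ((Θ f).le_of_opNorm_le (hL.norm_le hW (hb f) (t := 0)
        (norm_nonneg f) fun γ _ => f.norm_coe_le_norm γ) v) (norm_nonneg _)
  let Φ : G' → Γ →ᵇ ℝ := fun x =>
    BoundedContinuousFunction.ofNormedAddCommGroupDiscrete (F x) 1 (h.abs_le x)
  have hΦ : Continuous Φ := continuous_iff_continuousAt.2 fun x₀ => Metric.tendsto_nhds.2 fun ε hε =>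
    (h.cont x₀ _ (half_pos hε)).mono fun x hx =>
      ((BoundedContinuousFunction.dist_le (half_pos hε).le).2 hx).trans_lt (half_lt_self hε)
  have hI : IntegrableOn Φ A μ' := intOn hΦ hK hA
  have h1 := M.integral_comp_comm hI
  have h2 : ⇑(∫ x in A, Φ x ∂μ') = fun γ => ∫ x in A, F x γ ∂μ' := funext fun γ =>
    ((BoundedContinuousFunction.evalCLM ℝ γ).integral_comp_comm hI).symm
  change ∫ x in A, ⟪w, Θ (F x) v⟫_ℂ ∂μ' = ⟪w, Θ (⇑(∫ x in A, Φ x ∂μ')) v⟫_ℂ at h1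
  rwa [h2] at h1

end Lm

end Vale.Agent.P092CR
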