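import Mathlib.Analysis.CStarAlgebra.ContinuousFunctionalCalculus.Continuity
import Mathlib.Analysis.CStarAlgebra.ContinuousLinearMap
import Mathlib.Analysis.InnerProductSpace.StarOrder
import Mathlib.Analysis.CStarAlgebra.ContinuousFunctionalCalculus.Isometric
import Mathlib.Analysis.CStarAlgebra.ContinuousFunctionalCalculus.Basic

/-!
P092 (helper22), block CRE: square roots of positive operators, depending continuously on the
operator and compatible with intertwiners.
-/

set_option linter.all false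

open Filter Topology ContinuousLinearMap
open scoped InnerProductSpace

namespace Vale.Agent.P092CR

variable {H : Type} [NormedAddCommGroup H] [InnerProductSpace ℂ H] [CompleteSpace H]

/-- the functional calculus is compatible with intertwiners -/
theorem cfc_int {a a' b : H →L[ℂ] H} (ha : IsSelfAdjoint a) (ha' : IsSelfAdjoint a')
    (h : a * b = b * a') {f : ℝ → ℝ} (hf : Continuous f) : cfc f a * b = b * cfc f a' := by
  have hs : IsCompact (spectrum ℝ a ∪ spectrum ℝ a') :=
    (ContinuousFunctionalCalculus.isCompact_spectrum a).union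
      (ContinuousFunctionalCalculus.isCompact_spectrum a')
  have : CompactSpace ↥(spectrum ℝ a ∪ spectrum ℝ a') := isCompact_iff_compactSpace.1 hs
  have key : ∀ g : C(↥(spectrum ℝ a ∪ spectrum ℝ a'), ℝ),
      cfcHomSuperset ha Set.subset_union_left g * b =
        b * cfcHomSuperset ha' Set.subset_union_right g := by
    intro g
    open scoped ContinuousFunctionalCalculus in
    induction g using ContinuousMap.induction_on_of_compact with
    | const r =>
      have e : ContinuousMap.const _ r = algebraMap ℝ C(↥(spectrum ℝ a ∪ spectrum ℝ a'), ℝ) r := rfl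
      rw [e, AlgHomClass.commutes, AlgHomClass.commutes]
      exact Algebra.commutes r b
    | id => rwa [cfcHomSuperset_id, cfcHomSuperset_id]
    | star_id => rwa [map_star, map_star, cfcHomSuperset_id, cfcHomSuperset_id, ha.star_eq, ha'.star_eq]
    | add f g hf hg => rw [map_add, map_add, add_mul, mul_add, hf, hg]
    | mul f g hf hg => rw [map_mul, map_mul, mul_assoc, hg, ← mul_assoc, hf, mul_assoc]
    | frequently f hf =>
      have hc : IsClosed {g : C(↥(spectrum ℝ a ∪ spectrum ℝ a'), ℝ) |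
          cfcHomSuperset ha Set.subset_union_left g * b =
            b * cfcHomSuperset ha' Set.subset_union_right g} :=
        isClosed_eq ((cfcHomSuperset_continuous ha _).mul continuous_const)
          (continuous_const.mul (cfcHomSuperset_continuous ha' _))
      exact hc.closure_subset (mem_closure_iff_frequently.2 hf)
  rw [cfc_apply f a ha hf.continuousOn, cfc_apply f a' ha' hf.continuousOn]
  exact key ⟨fun x => f x, hf.comp continuous_subtype_val⟩

/-- the package of square roots -/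
structure Rt (η : ℝ) (W U : (H →L[ℂ] H) → H →L[ℂ] H) : Prop where
  contW : ∀ {X : Type} [TopologicalSpace X] {a : X → H →L[ℂ] H}, Continuous a →
    (∀ x, IsSelfAdjoint (a x)) → Continuous fun x => W (a x)
  contU : ∀ {X : Type} [TopologicalSpace X] {a : X → H →L[ℂ] H}, Continuous a →
    (∀ x, IsSelfAdjoint (a x)) → Continuous fun x => U (a x)
  intW : ∀ {a a' b}, IsSelfAdjoint a → IsSelfAdjoint a' → a * b = b * a' → W a * b = b * W a'
  intU : ∀ {a a' b}, IsSelfAdjoint a → IsSelfAdjoint a' → a * b = b * a' → U a * b = b * U a'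
  inner : ∀ {a}, IsSelfAdjoint a → ∀ v w, ⟪U a v, W a w⟫_ℂ = ⟪v, w⟫_ℂ
  sa : ∀ a v w, ⟪U a v, w⟫_ℂ = ⟪v, U a w⟫_ℂ
  sq : ∀ {a}, a.IsPositive → ∀ v, ‖W a v‖ ^ 2 = (⟪v, a v⟫_ℂ).re + η * ‖v‖ ^ 2
  le : ∀ {a}, a.IsPositive → ∀ v, (⟪U a v, a (U a v)⟫_ℂ).re ≤ ‖v‖ ^ 2

theorem exists_rt {η : ℝ} (hη : 0 < η) : ∃ W U : (H →L[ℂ] H) → H →L[ℂ] H, Rt η W U := by
  have hp : ∀ t : ℝ, 0 < √(|t| + η) := fun t => Real.sqrt_pos.2 (by positivity)
  have hw : Continuous fun t : ℝ => √(|t| + η) := by fun_prop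
  have hu : Continuous fun t : ℝ => (√(|t| + η))⁻¹ := hw.inv₀ fun t => (hp t).ne'
  have hsa : ∀ (f : ℝ → ℝ) (a : H →L[ℂ] H) v w, ⟪cfc f a v, w⟫_ℂ = ⟪v, cfc f a w⟫_ℂ := by
    intro f a v w
    have h1 : IsSelfAdjoint (cfc f a) := cfc_predicate f a
    rw [← adjoint_inner_right, ← star_eq_adjoint, h1.star_eq]
  have hWU : ∀ {a : H →L[ℂ] H}, IsSelfAdjoint a → ∀ v,
      cfc (fun t : ℝ => √(|t| + η)) a (cfc (fun t : ℝ => (√(|t| + η))⁻¹) a v) = v := by
    intro a ha v
    have h1 := cfc_mul (fun t : ℝ => √(|t| + η)) (fun t : ℝ => (√(|t| + η))⁻¹) a hw.continuousOn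
      hu.continuousOn
    simp only [mul_inv_cancel₀ (hp _).ne'] at h1
    rw [cfc_const_one ℝ a] at h1
    exact (DFunLike.congr_fun h1 v).symm
  have hsq : ∀ {a : H →L[ℂ] H}, a.IsPositive → ∀ v,
      ‖cfc (fun t : ℝ => √(|t| + η)) a v‖ ^ 2 = (⟪v, a v⟫_ℂ).re + η * ‖v‖ ^ 2 := by
    intro a ha v
    have ha' : IsSelfAdjoint a := ha.isSelfAdjoint
    have h0 : 0 ≤ a := (nonneg_iff_isPositive a).2 ha
    have h1 := cfc_mul (fun t : ℝ => √(|t| + η)) (fun t : ℝ => √(|t| + η)) a hw.continuousOn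
      hw.continuousOn
    have h2 : cfc (fun t : ℝ => √(|t| + η) * √(|t| + η)) a = cfc (fun t : ℝ => t + η) a :=
      cfc_congr fun t ht => by
        rw [Real.mul_self_sqrt (by positivity), abs_of_nonneg (spectrum_nonneg_of_nonneg h0 ht)]
    rw [h2, cfc_add_const η (fun t : ℝ => t) a, cfc_id' ℝ a] at h1
    rw [Algebra.algebraMap_eq_smul_one] at h1
    have h3 : a v + η • v =
        cfc (fun t : ℝ => √(|t| + η)) a (cfc (fun t : ℝ => √(|t| + η)) a v) := DFunLike.congr_fun h1 v
    rw [← inner_self_eq_norm_sq (𝕜 := ℂ), hsa, ← h3, inner_add_right, map_add,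
      ← Complex.coe_smul, inner_smul_right, ← inner_self_eq_norm_sq (𝕜 := ℂ) v]
    exact congrArg _ (Complex.re_ofReal_mul _ _)
  refine ⟨cfc fun t : ℝ => √(|t| + η), cfc fun t : ℝ => (√(|t| + η))⁻¹,
    fun ha hs => Continuous.cfc_of_mem_nhdsSet (s := Set.univ) _ univ_mem ha hs hw.continuousOn,
    fun ha hs => Continuous.cfc_of_mem_nhdsSet (s := Set.univ) _ univ_mem ha hs hu.continuousOn,
    fun ha ha' h => cfc_int ha ha' h hw, fun ha ha' h => cfc_int ha ha' h hu,
    fun ha v w => by rw [← hsa, hWU ha], hsa _, hsq, fun {a} ha v => ?_⟩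
  have h1 := hsq ha (cfc (fun t : ℝ => (√(|t| + η))⁻¹) a v)
  rw [hWU ha.isSelfAdjoint] at h1
  nlinarith [mul_nonneg hη.le (sq_nonneg ‖cfc (fun t : ℝ => (√(|t| + η))⁻¹) a v‖)]

end Vale.Agent.P092CR
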