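import Vale.Agent.P092CR.Lim
import Vale.Agent.P092CR.Root

/-!
P092 (helper22), block CRE: the creation step.
-/

set_option linter.all false

open Filter Topology MeasureTheory ContinuousLinearMap
open scoped InnerProductSpace

namespace Vale.Agent.P092CR

open Vale.Agent.P092WN Vale.Agent.P092NW

variable {G Γ H H₀ : Type} [Group G] [Group Γ] [NormedAddCommGroup H] [InnerProductSpace ℂ H]
  [CompleteSpace H] [NormedAddCommGroup H₀] [InnerProductSpace ℂ H₀] {S : Sys G Γ H H₀}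
  {len : Γ → ℝ} {r' : ℕ} {gap : Fin r' → Γ → ℝ} {C : ℝ} {Θ : Finset (Fin r')}

theorem exists_wt (hG : Gp len gap C) (Θ : Finset (Fin r')) {τ : ℕ → ℝ} (hτ : Tendsto τ atTop atTop) :
    ∃ χ : ℕ → Γ → ℝ, Wt (Big gap Θ) χ ∧ ∀ᶠ k in atTop, ∀ γ ∈ Big gap Θ (τ k), χ k γ = 1 := by
  refine ⟨fun k γ => max (1 - ∑ i ∈ Θ, max (2 - 2 * gap i γ / τ k) 0) 0,
    ⟨fun k γ => le_max_right _ _, fun k γ => max_le ?_ zero_le_one, fun t => ?_,
      fun s t c hc => ?_⟩, ?_⟩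
  · linarith [Finset.sum_nonneg (s := Θ) fun i _ => le_max_right (2 - 2 * gap i γ / τ k) 0]
  · filter_upwards [hτ.eventually_gt_atTop 0, hτ.eventually_ge_atTop (2 * t)] with k h0 h1 γ hγ
    simp only [Big, Set.mem_setOf_eq, not_forall, not_le] at hγ
    obtain ⟨i, hi, h2⟩ := hγ
    have h3 := Finset.single_le_sum (f := fun i => max (2 - 2 * gap i γ / τ k) 0)
      (fun i _ => le_max_right _ _) hi
    have h4 : 2 * gap i γ / τ k ≤ 1 := (div_le_one h0).2 (by linarith)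
    exact max_eq_right (by linarith [le_max_left (2 - 2 * gap i γ / τ k) 0])
  · have h1 := (hτ.const_div_atTop (Θ.card * (2 * (C * (len s + len t))))).eventually
      (Iic_mem_nhds hc)
    filter_upwards [hτ.eventually_gt_atTop 0, h1] with k h0 h1 γ
    refine (abs_max_sub_max_le_abs _ _ _).trans ?_
    rw [sub_sub_sub_cancel_left, ← Finset.sum_sub_distrib]
    refine (Finset.abs_sum_le_sum_abs _ _).trans ((Finset.sum_le_card_nsmul _ _
      (2 * (C * (len s + len t)) / τ k) fun i _ => ?_).trans ?_)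
    · refine (abs_max_sub_max_le_abs _ _ _).trans ?_
      rw [sub_sub_sub_cancel_left, ← sub_div, ← mul_sub, abs_div, abs_mul, abs_of_pos h0, abs_two]
      exact div_le_div_of_nonneg_right (mul_le_mul_of_nonneg_left (hG.lip i s γ t) zero_le_two) h0.le
    · rw [nsmul_eq_mul, ← mul_div_assoc]
      exact h1
  · filter_upwards [hτ.eventually_gt_atTop 0] with k h0 γ hγ
    rw [Finset.sum_eq_zero fun i hi => max_eq_right ?_, sub_zero, max_eq_left zero_le_one]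
    have h1 : 2 ≤ 2 * gap i γ / τ k := (le_div_iff₀ h0).2 (by linarith [hγ i hi])
    linarith

theorem sl_of {f f' : Γ → ℝ} {K : ℝ} (h : ∀ τ, ∀ γ ∈ Big gap Θ τ, |f γ - f' γ| ≤ Real.exp (K - τ)) :
    Sl (Big gap Θ) f f' := fun c hc =>
  ⟨K - Real.log c, fun γ hγ => by simpa [Real.exp_log hc] using h _ γ hγ⟩

theorem Sl.mul {f f' g g' : Γ → ℝ} (h : Sl (Big gap Θ) f f') (h' : Sl (Big gap Θ) g g')
    (hg : ∀ γ, |g γ| ≤ 1) (hf' : ∀ γ, |f' γ| ≤ 1) :
    Sl (Big gap Θ) (fun γ => f γ * g γ) fun γ => f' γ * g' γ := fun c hc => by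
  obtain ⟨t, ht⟩ := h _ (half_pos hc)
  obtain ⟨t', ht'⟩ := h' _ (half_pos hc)
  refine ⟨max t t', fun γ hγ => ?_⟩
  have h1 := ht γ fun i hi => (le_max_left _ _).trans (hγ i hi)
  have h2 := ht' γ fun i hi => (le_max_right _ _).trans (hγ i hi)
  have e : f γ * g γ - f' γ * g' γ = (f γ - f' γ) * g γ + f' γ * (g γ - g' γ) := by ring
  rw [e]
  refine (abs_add_le _ _).trans ?_
  rw [abs_mul, abs_mul]
  linarith [mul_le_of_le_one_right (abs_nonneg (f γ - f' γ)) (hg γ),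
    mul_le_of_le_one_left (abs_nonneg (g γ - g' γ)) (hf' γ)]

variable {G' : Type} [Group G'] [TopologicalSpace G'] [IsTopologicalGroup G'] [MeasurableSpace G']
  [OpensMeasurableSpace G'] [T2Space G'] {μ' : Measure G'} [IsFiniteMeasureOnCompacts μ']

/-- **The creation step.** -/
theorem cre (hS : Ex S) (hG : Gp len gap C) {Z : Subgroup G} {a : ℕ → G} {ι : ℕ → H →L[ℂ] H}
    (hE : Emb S len Z a ι) {e : Γ →* G'} {c₀ : ℝ} {d : ℕ} {J R : ℝ} {A A' : Set G'}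
    {ψ F : G' → Γ → ℝ} (hD : GeoD μ' e len gap C c₀ d Θ J R A A' ψ F) (hJ : 1 ≤ J) (hR : 1 ≤ R)
    {τ : ℕ → ℝ} (hτ : Tendsto τ atTop atTop) {p : ℕ} {s : Fin p → G} (hs : ∀ l, s l ∈ Z) (hp : 0 < p)
    (hP : Pair S μ' e s) {N ε : ℝ} (y : ∀ l, RB S len (s l) J N ε)
    (hy : ∀ l (ε₂ : ℝ), 0 < ε₂ → ∃ J₂ N₂, Nonempty (LB S len (s l) J₂ N₂ ε₂)) {δ : ℝ} (hδ : 0 < δ) :
    ∃ᶠ k in atTop, c₀ * ∑ l, ‖Pr S (Big gap Θ (τ k) ∩ Oth gap Θ R) (ι k (S.ζ (s l)))‖ ^ 2 ≤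
      2 * √(p : ℝ) * √(Real.exp (C * R) * J ^ d * (C + 1)) + p * (C * ε + δ) := by
  obtain ⟨χ, hW, hχ⟩ := exists_wt hG Θ hτ
  obtain ⟨T, hL⟩ := exists_lm hE hW
  obtain ⟨K, hK, hA'⟩ := hD.cpt
  have hA : A ⊆ K := fun x hx => hA' (by
    simpa using hD.sub x hx 1 (by rw [hG.len_one]; linarith))
  have hm : 0 < μ'.real A + 1 := by positivity
  obtain ⟨W, U, hR⟩ := exists_rt (H := H) (one_div_pos.2 hm)
  have uG := hD.ucψ.mul hD.ucψ
  have uΦ := hD.ucF.mul hD.ucψ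
  have uN := hD.ucF.mul hD.ucF
  have sG := fun x => hL.sa hW (uG.bd x)
  have pG := fun x => hL.pos hW hS (uG.bd x) (uG.nonneg x)
  have h1 := ζ_mem hS (1 : G)
  have hC := hG.C_nonneg
  have hα : 0 ≤ Real.exp (C * R) * J ^ d := by positivity
  -- the quadratic forms at the unit vector
  have form : ∀ {E : G' → Γ → ℝ}, UC E → ∀ {A₀ : Set G'}, A₀ ⊆ K → ∀ {c t : ℝ}, 0 ≤ c →
      (∀ γ ∈ Big gap Θ t, ∫ x in A₀, E x γ ∂μ' ≤ c) →
      IntegrableOn (fun x => (⟪S.ζ 1, T (E x) (S.ζ 1)⟫_ℂ).re) A₀ μ' ∧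
        ∫ x in A₀, (⟪S.ζ 1, T (E x) (S.ζ 1)⟫_ℂ).re ∂μ' ≤ c := by
    intro E hE A₀ h0 c t hc hle
    have hc1 : Continuous fun x => ⟪S.ζ 1, T (E x) (S.ζ 1)⟫_ℂ :=
      continuous_const.inner ((hL.cont hW hE).clm_apply continuous_const)
    refine ⟨intOn (Complex.continuous_re.comp hc1) hK h0, ?_⟩
    have h2 := integral_re (μ := μ'.restrict A₀) (intOn hc1 hK h0)
    rw [hL.int hW hE hK h0] at h2
    refine (le_of_eq h2).trans ((Complex.re_le_norm _).trans ((norm_inner_le_norm _ _).trans ?_))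
    have h3 := (T _).le_of_opNorm_le (hL.norm_le hW (hE.int_bd (μ' := μ') hK h0) hc fun γ hγ => by
      rw [abs_of_nonneg (hE.int_nonneg γ)]; exact hle γ hγ) (S.ζ 1)
    rwa [hS.ζ_one, one_mul, ← mul_one c, ← hS.ζ_one 1]
  have cX : Continuous fun x => U (T fun γ => ψ x γ * ψ x γ) (T (fun γ => F x γ * ψ x γ) (S.ζ 1)) :=
    (hR.contU (hL.cont hW uG) sG).clm_apply ((hL.cont hW uΦ).clm_apply continuous_const)
  have cY : Continuous fun x => W (T fun γ => ψ x γ * ψ x γ) (S.ζ 1) :=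
    (hR.contW (hL.cont hW uG) sG).clm_apply continuous_const
  have key := hP 1 (fun l => (y l).ι) (fun l => (y l).deg) (fun l => (y l).r) (fun l => (y l).hm)
    (fun l => (y l).ct) _ _ cX cY A A' K hD.mA hD.mA' hK hA hA'
    (fun x hx l i => hD.sub x hx _ ((y l).len_le i)) (√(Real.exp (C * R) * J ^ d)) (√(C + 1))
    (Real.sqrt_nonneg _) (Real.sqrt_nonneg _) ?_ ?_
  rotate_left
  · obtain ⟨i1, i2⟩ := form uN hA' hα fun γ hγ => (uN.int_mono hD.ucF hK hA' fun x =>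
      mul_le_of_le_one_left (hD.ucF.nonneg x γ) (hD.ucF.le_one x γ)).trans (hD.volF γ hγ)
    rw [Real.sq_sqrt hα]
    refine (integral_mono (intOn (cX.norm.pow 2) hK hA') i1 fun x => ?_).trans i2
    have b1 := hL.cs hW hS (hD.ucF.bd x) (hD.ucψ.bd x) (U (T fun γ => ψ x γ * ψ x γ)
      (U (T fun γ => ψ x γ * ψ x γ) (T (fun γ => F x γ * ψ x γ) (S.ζ 1)))) h1
    have b2 := hR.le (pG x) (U (T fun γ => ψ x γ * ψ x γ) (T (fun γ => F x γ * ψ x γ) (S.ζ 1)))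
    have b3 := (hL.pos hW hS (uN.bd x) (uN.nonneg x)).re_inner_nonneg_right (S.ζ 1)
    rw [hR.sa _ _ (T (fun γ => F x γ * ψ x γ) (S.ζ 1)), inner_self_eq_norm_sq_to_K, norm_pow,
      RCLike.norm_ofReal, abs_norm] at b1
    have b4 := b1.trans (mul_le_mul_of_nonneg_right b2 b3)
    rcases (sq_nonneg ‖U (T fun γ => ψ x γ * ψ x γ) (T (fun γ => F x γ * ψ x γ) (S.ζ 1))‖).eq_or_lt
      with h0 | h0
    · exact h0.symm.le.trans b3
    · rw [sq] at b4
      exact le_of_mul_le_mul_left b4 h0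
  · obtain ⟨i1, i2⟩ := form uG hA hC (t := 0) fun γ _ => (uG.int_mono hD.ucψ hK hA fun x =>
      mul_le_of_le_one_left (hD.ucψ.nonneg x γ) (hD.ucψ.le_one x γ)).trans (hD.volψ γ)
    haveI : IsFiniteMeasure (μ'.restrict A) := isFiniteMeasure_restrict.2 (fin_of hK hA)
    rw [Real.sq_sqrt (by positivity)]
    simp only [hR.sq (pG _), hS.ζ_one, one_pow, mul_one]
    rw [integral_add i1 (integrable_const _), setIntegral_const, smul_eq_mul, mul_one_div]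
    exact add_le_add i2 ((div_le_one hm).2 (by linarith))
  have bI := uΦ.int_bd (μ' := μ') hK hA
  have nI : ‖T fun γ => ∫ x in A, F x γ * ψ x γ ∂μ'‖ ≤ C :=
    hL.norm_le hW bI hC (t := 0) fun γ _ => by
      rw [abs_of_nonneg (uΦ.int_nonneg γ)]
      exact (uΦ.int_mono hD.ucψ hK hA fun x =>
        mul_le_of_le_one_left (hD.ucψ.nonneg x γ) (hD.ucF.le_one x γ)).trans (hD.volψ γ)
  have main : ∀ l, (⟪S.ζ (s l), T (fun γ => ∫ x in A, F x γ * ψ x γ ∂μ') (S.ζ (s l))⟫_ℂ).re ≤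
      ‖∫ x in A, ⟪∑ i, (y l).r i 1 (U (T fun γ => ψ (x * (e ((y l).deg i))⁻¹) γ *
        ψ (x * (e ((y l).deg i))⁻¹) γ) (T (fun γ => F (x * (e ((y l).deg i))⁻¹) γ *
          ψ (x * (e ((y l).deg i))⁻¹) γ) (S.ζ 1))),
        S.L (s l) (W (T fun γ => ψ x γ * ψ x γ) (S.ζ 1))⟫_ℂ ∂μ'‖ + C * ε := by
    intro l
    rw [setIntegral_congr_fun hD.mA
      (g := fun x => ⟪(y l).op 1 (S.ζ 1), T (fun γ => F x γ * ψ x γ) (S.ζ (s l))⟫_ℂ) fun x hx => ?_,
      hL.int hW uΦ hK hA]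
    · have b1 := (y l).err_ζ 1
      have b2 := (T _).le_of_opNorm_le nI (S.ζ (s l))
      rw [one_mul] at b1
      rw [hS.ζ_one, mul_one] at b2
      have b3 := (norm_inner_le_norm (𝕜 := ℂ) _ _).trans
        (mul_le_mul b1 b2 (norm_nonneg _) (y l).ε_nonneg)
      rw [inner_sub_left, norm_sub_rev] at b3
      refine (Complex.re_le_norm _).trans ?_
      linarith [norm_le_norm_add_norm_sub'
        ⟪S.ζ (s l), T (fun γ => ∫ x in A, F x γ * ψ x γ ∂μ') (S.ζ (s l))⟫_ℂ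
        ⟪(y l).op 1 (S.ζ 1), T (fun γ => ∫ x in A, F x γ * ψ x γ ∂μ') (S.ζ (s l))⟫_ℂ]
    · have sψ := fun s => sl_of (K := C * (J + len s)) fun τ γ hγ => hD.slowL x hx τ γ s hγ
      have c1 := hR.intW (sG x) (sG x) (hL.left hW hS hE (hs l) (hy l) (uG.abs_le x) fun s =>
        (sψ s).mul (sψ s) (fun γ => hD.ucψ.abs_le x _) (hD.ucψ.abs_le x))
      have c2 : S.L (s l) (W (T fun γ => ψ x γ * ψ x γ) (S.ζ 1)) =
          W (T fun γ => ψ x γ * ψ x γ) (S.ζ (s l)) := by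
        rw [← mul_ap, ← c1, mul_ap, S.L_ζ, mul_one]
      simp only [c2]
      rw [← hL.inner_sa hW (uΦ.bd x), RB.op, sum_apply, map_sum, sum_inner, sum_inner]
      refine Finset.sum_congr rfl fun i _ => ?_
      have r1 := sl_of (K := C * J) fun τ γ hγ => hD.slowψ x hx τ γ _ hγ ((y l).len_le i)
      have r2 := sl_of (K := C * J) fun τ γ hγ => hD.slowF x hx τ γ _ hγ ((y l).len_le i)
      have r3 := hR.intU (sG x) (sG _) (hL.right hW hS hE ((y l).hm i) (uG.abs_le x) (uG.abs_le _)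
        (r1.mul r1 (fun γ => hD.ucψ.abs_le x _) (hD.ucψ.abs_le _)))
      have r4 := hL.right hW hS hE ((y l).hm i) (uΦ.abs_le x) (uΦ.abs_le _)
        (r2.mul r1 (fun γ => hD.ucψ.abs_le x _) (hD.ucF.abs_le _))
      rw [← mul_ap ((y l).r i 1), ← r3, mul_ap, hR.inner (sG x), ← mul_ap ((y l).r i 1), ← r4, mul_ap]
  have tot := (Finset.sum_le_sum fun l (_ : l ∈ Finset.univ) => main l)
  rw [Finset.sum_add_distrib, Finset.sum_const, Finset.card_univ, Fintype.card_fin, nsmul_eq_mul] at tot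
  have lim := tendsto_finset_sum Finset.univ fun l (_ : l ∈ Finset.univ) =>
    (Complex.continuous_re.tendsto _).comp (hL.lim bI _ (ζ_mem hS (s l)) _ (ζ_mem hS (s l)))
  have hpδ : 0 < (p : ℝ) * δ := mul_pos (Nat.cast_pos.2 hp) hδ
  refine Frequently.filter_mono (Eventually.frequently ?_) Nat.hyperfilter_le_atTop
  filter_upwards [lim.eventually (Iic_mem_nhds (lt_add_of_pos_right _ hpδ)),
    hχ.filter_mono Nat.hyperfilter_le_atTop,
    (hτ.eventually_ge_atTop (C * (J + R))).filter_mono Nat.hyperfilter_le_atTop] with k k1 k2 k3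
  rw [Finset.mul_sum, Real.sqrt_mul hα]
  refine (Finset.sum_le_sum fun l _ => hS.le_re (hW.bd bI k)
    (fun γ => mul_nonneg (uΦ.int_nonneg γ) (hW.nonneg k γ)) (fun γ hγ => ?_) _).trans
    (le_trans k1 (by linarith))
  rw [k2 γ hγ.1, mul_one]
  exact hD.low γ (fun i hi => k3.trans (hγ.1 i hi)) hγ.2

end Vale.Agent.P092CR
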